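import Vale.Agent.P062.Copy
import Vale.Agent.P062.Data.Cert.Tab
import Vale.Agent.P062.Data.Cert.Codes

/-!
# P062: checked runs of certificate nodes
-/

namespace Vale.Agent.P062.Data.Cert

def ok0 : Engine.okList tab (Engine.copyMask 17) codes0 0 = true := by decide +kernel

def ok1 : Engine.okList tab (Engine.copyMask 17) codes1 1000 = true := by decide +kernel

def ok2 : Engine.okList tab (Engine.copyMask 17) codes2 2000 = true := by decide +kernel

def ok3 : Engine.okList tab (Engine.copyMask 17) codes3 3000 = true := by decide +kernel

def ok4 : Engine.okList tab (Engine.copyMask 17) codes4 4000 = true := by decide +kernel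

def ok5 : Engine.okList tab (Engine.copyMask 17) codes5 5000 = true := by decide +kernel

end Vale.Agent.P062.Data.Cert
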