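import Vale.Agent.P062.Copy
import Vale.Agent.P062.Data.Cert.Tab
import Vale.Agent.P062.Data.Cert.Codes

/-!
# P062: checked runs of certificate nodes
-/

namespace Vale.Agent.P062.Data.Cert

def ok6 : Engine.okList tab (Engine.copyMask 17) codes6 6000 = true := by decide +kernel

def ok7 : Engine.okList tab (Engine.copyMask 17) codes7 7000 = true := by decide +kernel

def ok8 : Engine.okList tab (Engine.copyMask 17) codes8 8000 = true := by decide +kernel

def ok9 : Engine.okList tab (Engine.copyMask 17) codes9 9000 = true := by decide +kernel

def ok10 : Engine.okList tab (Engine.copyMask 17) codes10 10000 = true := by decide +kernel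

def ok11 : Engine.okList tab (Engine.copyMask 17) codes11 11000 = true := by decide +kernel

end Vale.Agent.P062.Data.Cert
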