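import Vale.Agent.P062.Copy
import Vale.Agent.P062.Data.Cert.Tab
import Vale.Agent.P062.Data.Cert.Codes

/-!
# P062: checked runs of certificate nodes
-/

namespace Vale.Agent.P062.Data.Cert

def ok12 : Engine.okList tab (Engine.copyMask 17) codes12 12000 = true := by decide +kernel

def ok13 : Engine.okList tab (Engine.copyMask 17) codes13 13000 = true := by decide +kernel

def ok14 : Engine.okList tab (Engine.copyMask 17) codes14 14000 = true := by decide +kernel

def ok15 : Engine.okList tab (Engine.copyMask 17) codes15 15000 = true := by decide +kernel

def ok16 : Engine.okList tab (Engine.copyMask 17) codes16 16000 = true := by decide +kernel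

def ok17 : Engine.okList tab (Engine.copyMask 17) codes17 17000 = true := by decide +kernel

end Vale.Agent.P062.Data.Cert
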