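import Vale.Agent.P062.Copy
import Vale.Agent.P062.Data.Cert.Tab
import Vale.Agent.P062.Data.Cert.Codes

/-!
# P062: checked runs of certificate nodes
-/

namespace Vale.Agent.P062.Data.Cert

def ok18 : Engine.okList tab (Engine.copyMask 17) codes18 18000 = true := by decide +kernel

def ok19 : Engine.okList tab (Engine.copyMask 17) codes19 19000 = true := by decide +kernel

def ok20 : Engine.okList tab (Engine.copyMask 17) codes20 20000 = true := by decide +kernel

def ok21 : Engine.okList tab (Engine.copyMask 17) codes21 21000 = true := by decide +kernel

def ok22 : Engine.okList tab (Engine.copyMask 17) codes22 22000 = true := by decide +kernel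

def ok23 : Engine.okList tab (Engine.copyMask 17) codes23 23000 = true := by decide +kernel

end Vale.Agent.P062.Data.Cert
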