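import Vale.Agent.P062.Copy
import Vale.Agent.P062.Data.Cert.Tab
import Vale.Agent.P062.Data.Cert.Codes

/-!
# P062: checked runs of certificate nodes
-/

namespace Vale.Agent.P062.Data.Cert

def ok24 : Engine.okList tab (Engine.copyMask 17) codes24 24000 = true := by decide +kernel

def ok25 : Engine.okList tab (Engine.copyMask 17) codes25 25000 = true := by decide +kernel

def ok26 : Engine.okList tab (Engine.copyMask 17) codes26 26000 = true := by decide +kernel

def ok27 : Engine.okList tab (Engine.copyMask 17) codes27 27000 = true := by decide +kernel

def ok28 : Engine.okList tab (Engine.copyMask 17) codes28 28000 = true := by decide +kernel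

def ok29 : Engine.okList tab (Engine.copyMask 17) codes29 29000 = true := by decide +kernel

end Vale.Agent.P062.Data.Cert
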