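import Vale.Agent.P062.Copy
import Vale.Agent.P062.Data.Cert.Tab
import Vale.Agent.P062.Data.Cert.Codes

/-!
# P062: checked runs of certificate nodes
-/

namespace Vale.Agent.P062.Data.Cert

def ok30 : Engine.okList tab (Engine.copyMask 17) codes30 30000 = true := by decide +kernel

def ok31 : Engine.okList tab (Engine.copyMask 17) codes31 31000 = true := by decide +kernel

def ok32 : Engine.okList tab (Engine.copyMask 17) codes32 32000 = true := by decide +kernel

def ok33 : Engine.okList tab (Engine.copyMask 17) codes33 33000 = true := by decide +kernel

end Vale.Agent.P062.Data.Cert
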