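import Vale.Agent.P062.Sound
import Vale.Agent.P062.Data.Cert.Ok0
import Vale.Agent.P062.Data.Cert.Ok1
import Vale.Agent.P062.Data.Cert.Ok2
import Vale.Agent.P062.Data.Cert.Ok3
import Vale.Agent.P062.Data.Cert.Ok4
import Vale.Agent.P062.Data.Cert.Ok5

/-!
# P062: the certificate gives Maker a win
-/

namespace Vale.Agent.P062.Data.Cert

open Engine

theorem good0 : Good (fun R Z => Win (cells 17 R) (cells 17 Z)) tab 0 := good_zero _ _

theorem good1 : Good (fun R Z => Win (cells 17 R) (cells 17 Z)) tab 1000 :=
  good_step good0 ok0 (by decide +kernel)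

theorem good2 : Good (fun R Z => Win (cells 17 R) (cells 17 Z)) tab 2000 :=
  good_step good1 ok1 (by decide +kernel)

theorem good3 : Good (fun R Z => Win (cells 17 R) (cells 17 Z)) tab 3000 :=
  good_step good2 ok2 (by decide +kernel)

theorem good4 : Good (fun R Z => Win (cells 17 R) (cells 17 Z)) tab 4000 :=
  good_step good3 ok3 (by decide +kernel)

theorem good5 : Good (fun R Z => Win (cells 17 R) (cells 17 Z)) tab 5000 :=
  good_step good4 ok4 (by decide +kernel)

theorem good6 : Good (fun R Z => Win (cells 17 R) (cells 17 Z)) tab 6000 :=
  good_step good5 ok5 (by decide +kernel)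

theorem good7 : Good (fun R Z => Win (cells 17 R) (cells 17 Z)) tab 7000 :=
  good_step good6 ok6 (by decide +kernel)

theorem good8 : Good (fun R Z => Win (cells 17 R) (cells 17 Z)) tab 8000 :=
  good_step good7 ok7 (by decide +kernel)

theorem good9 : Good (fun R Z => Win (cells 17 R) (cells 17 Z)) tab 9000 :=
  good_step good8 ok8 (by decide +kernel)

theorem good10 : Good (fun R Z => Win (cells 17 R) (cells 17 Z)) tab 10000 :=
  good_step good9 ok9 (by decide +kernel)

theorem good11 : Good (fun R Z => Win (cells 17 R) (cells 17 Z)) tab 11000 :=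
  good_step good10 ok10 (by decide +kernel)

theorem good12 : Good (fun R Z => Win (cells 17 R) (cells 17 Z)) tab 12000 :=
  good_step good11 ok11 (by decide +kernel)

theorem good13 : Good (fun R Z => Win (cells 17 R) (cells 17 Z)) tab 13000 :=
  good_step good12 ok12 (by decide +kernel)

theorem good14 : Good (fun R Z => Win (cells 17 R) (cells 17 Z)) tab 14000 :=
  good_step good13 ok13 (by decide +kernel)

theorem good15 : Good (fun R Z => Win (cells 17 R) (cells 17 Z)) tab 15000 :=
  good_step good14 ok14 (by decide +kernel)

theorem good16 : Good (fun R Z => Win (cells 17 R) (cells 17 Z)) tab 16000 :=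
  good_step good15 ok15 (by decide +kernel)

theorem good17 : Good (fun R Z => Win (cells 17 R) (cells 17 Z)) tab 17000 :=
  good_step good16 ok16 (by decide +kernel)

theorem good18 : Good (fun R Z => Win (cells 17 R) (cells 17 Z)) tab 18000 :=
  good_step good17 ok17 (by decide +kernel)

theorem good19 : Good (fun R Z => Win (cells 17 R) (cells 17 Z)) tab 19000 :=
  good_step good18 ok18 (by decide +kernel)

theorem good20 : Good (fun R Z => Win (cells 17 R) (cells 17 Z)) tab 20000 :=
  good_step good19 ok19 (by decide +kernel)

theorem good21 : Good (fun R Z => Win (cells 17 R) (cells 17 Z)) tab 21000 :=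
  good_step good20 ok20 (by decide +kernel)

theorem good22 : Good (fun R Z => Win (cells 17 R) (cells 17 Z)) tab 22000 :=
  good_step good21 ok21 (by decide +kernel)

theorem good23 : Good (fun R Z => Win (cells 17 R) (cells 17 Z)) tab 23000 :=
  good_step good22 ok22 (by decide +kernel)

theorem good24 : Good (fun R Z => Win (cells 17 R) (cells 17 Z)) tab 24000 :=
  good_step good23 ok23 (by decide +kernel)

theorem good25 : Good (fun R Z => Win (cells 17 R) (cells 17 Z)) tab 25000 :=
  good_step good24 ok24 (by decide +kernel)

theorem good26 : Good (fun R Z => Win (cells 17 R) (cells 17 Z)) tab 26000 :=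
  good_step good25 ok25 (by decide +kernel)

theorem good27 : Good (fun R Z => Win (cells 17 R) (cells 17 Z)) tab 27000 :=
  good_step good26 ok26 (by decide +kernel)

theorem good28 : Good (fun R Z => Win (cells 17 R) (cells 17 Z)) tab 28000 :=
  good_step good27 ok27 (by decide +kernel)

theorem good29 : Good (fun R Z => Win (cells 17 R) (cells 17 Z)) tab 29000 :=
  good_step good28 ok28 (by decide +kernel)

theorem good30 : Good (fun R Z => Win (cells 17 R) (cells 17 Z)) tab 30000 :=
  good_step good29 ok29 (by decide +kernel)

theorem good31 : Good (fun R Z => Win (cells 17 R) (cells 17 Z)) tab 31000 :=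
  good_step good30 ok30 (by decide +kernel)

theorem good32 : Good (fun R Z => Win (cells 17 R) (cells 17 Z)) tab 32000 :=
  good_step good31 ok31 (by decide +kernel)

theorem good33 : Good (fun R Z => Win (cells 17 R) (cells 17 Z)) tab 33000 :=
  good_step good32 ok32 (by decide +kernel)

theorem good34 : Good (fun R Z => Win (cells 17 R) (cells 17 Z)) tab 33047 :=
  good_step good33 ok33 (by decide +kernel)

/-- The root nodes. -/
def roots : List Nat := [20047, 25354, 27563, 29832, 30829, 32096, 32505, 33046]

/-- The first replies left out. -/
def exc : List Nat := []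

theorem cover : coverOk 17 tab roots exc = true := by decide +kernel

/-- Maker has a winning strategy. -/
theorem makerWins : MakerWins :=
  makerWins_of_cover (n := 33047) (by decide +kernel) good34 cover

end Vale.Agent.P062.Data.Cert
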